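import Vale.Agent.P280.N.D02

/-! P280, stage 2: the structure of an interior weight. -/

open DirectSum Vale.Agent.P280.T Vale.Agent.P280.H127

namespace Vale.Agent.P280.H495

open Vale.Agent.P280.N

variable {r : ℕ} {R : Type} [CommRing R] [IsDomain R] [Algebra ℂ R]
  {𝒜 : ℕ × (Fin r → ℤ) → Submodule ℂ R} [GradedAlgebra 𝒜]

/-- The root data of all vertices, with a common `N`. -/
structure RS (𝒜 : ℕ × (Fin r → ℤ) → Submodule ℂ R) [GradedAlgebra 𝒜] (N : ℤ)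
    (β : (Fin r → ℤ) → ((Fin r → ℤ) →+ ℤ)) (E F : (Fin r → ℤ) → VF R) : Prop where
  H : Hyp 𝒜
  N0 : 0 < N
  root : ∀ χ, Vx 𝒜 χ → Root 𝒜 N χ (β χ) (E χ) (F χ)

theorem exists_RS (H : Hyp 𝒜) : ∃ N β E F, RS 𝒜 N β E F := by
  classical
  have : Fintype {χ // Vx 𝒜 χ} := ((D01.wt_finite H).subset fun χ hχ => hχ.1).fintype
  obtain ⟨N, β, E, F, hN, hr⟩ := exists_roots H (fun i : {χ // Vx 𝒜 χ} => i.1) (fun i => i.2)
  exact ⟨N, fun χ => if h : Vx 𝒜 χ then β ⟨χ, h⟩ else 0,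
    fun χ => if h : Vx 𝒜 χ then E ⟨χ, h⟩ else 0, fun χ => if h : Vx 𝒜 χ then F ⟨χ, h⟩ else 0,
    H, hN, fun χ h => by
      simp only [h, dif_pos]
      exact hr ⟨χ, h⟩⟩

/-- `lam` is a weight which is on no proper face of the hull. -/
def Inter (𝒜 : ℕ × (Fin r → ℤ) → Submodule ℂ R) (lam : Fin r → ℤ) : Prop :=
  Wt 𝒜 lam ∧ ∀ l : (Fin r → ℤ) →+ ℤ, 0 < l lam → ∃ ω, Wt 𝒜 ω ∧ l lam < l ω

/-- `x` is in the hull of the weights, with integral values of the root functionals. -/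
def HL (𝒜 : ℕ × (Fin r → ℤ) → Submodule ℂ R) (N : ℤ) (β : (Fin r → ℤ) → ((Fin r → ℤ) →+ ℤ))
    (x : Fin r → ℤ) : Prop :=
  (∀ χ, Vx 𝒜 χ → N ∣ β χ x) ∧
    ∀ (l : (Fin r → ℤ) →+ ℤ) (a : ℤ), (∀ ω, Wt 𝒜 ω → l ω ≤ a) → l x ≤ a

namespace RS

variable {N : ℤ} {β : (Fin r → ℤ) → ((Fin r → ℤ) →+ ℤ)} {E F : (Fin r → ℤ) → VF R}
  {χ ψ ω lam : Fin r → ℤ}

theorem hl_wt (c : RS 𝒜 N β E F) (hω : Wt 𝒜 ω) : HL 𝒜 N β ω :=
  ⟨fun χ hχ => (c.root χ hχ).int ω hω, fun _ _ h => h ω hω⟩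

theorem ne_zero (c : RS 𝒜 N β E F) (hχ : Vx 𝒜 χ) : χ ≠ 0 := by
  rintro rfl
  obtain ⟨-, l, hl, -⟩ := hχ
  rw [map_zero] at hl
  exact lt_irrefl _ hl

theorem hl_refl (c : RS 𝒜 N β E F) (hχ : Vx 𝒜 χ) {x : Fin r → ℤ} (hx : HL 𝒜 N β x) {k : ℤ}
    (hk : β χ x = k * N) : HL 𝒜 N β (x - k • χ) := by
  refine ⟨fun ψ hψ => ?_, fun l a hl => ?_⟩
  · rw [map_sub, map_zsmul, smul_eq_mul]
    exact dvd_sub (hx.1 ψ hψ) (((c.root ψ hψ).int χ hχ.1).mul_left k)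
  · have h1 := hx.2 (N • l - (l χ) • β χ) (N * a) fun ω hω => by
      have := (c.root χ hχ).hull l a hl ω hω
      simp only [AddMonoidHom.sub_apply, AddMonoidHom.smul_apply, smul_eq_mul]
      linarith
    simp only [AddMonoidHom.sub_apply, AddMonoidHom.smul_apply, smul_eq_mul, hk] at h1
    rw [map_sub, map_zsmul, smul_eq_mul]
    have h2 : N * (l x - k * l χ) ≤ N * a := by linarith
    exact le_of_mul_le_mul_left h2 c.N0

/-- Two reflections in the same direction are equal on the hull. -/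
theorem uniq (c : RS 𝒜 N β E F) (hχ : Vx 𝒜 χ) {b b' : (Fin r → ℤ) →+ ℤ} (h2 : b χ = 2 * N)
    (h2' : b' χ = 2 * N)
    (hp : ∀ (x : Fin r → ℤ) (k : ℤ), HL 𝒜 N β x → b x = k * N → HL 𝒜 N β (x - k • χ))
    (hp' : ∀ (x : Fin r → ℤ) (k : ℤ), HL 𝒜 N β x → b' x = k * N → HL 𝒜 N β (x - k • χ))
    {x : Fin r → ℤ} (hx : HL 𝒜 N β x) {k k' : ℤ} (hk : b x = k * N) (hk' : b' x = k' * N) :
    k = k' := by
  have key : ∀ n : ℕ, HL 𝒜 N β (x - ((n : ℤ) * (k' - k)) • χ) := by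
    intro n
    induction n with
    | zero => simpa using hx
    | succ n ih =>
      have h1 := hp _ (k - 2 * (n * (k' - k))) ih (by
        rw [map_sub, map_zsmul, smul_eq_mul, h2, hk]; ring)
      have h3 := hp' _ (k' - 2 * k + 2 * (n * (k' - k))) h1 (by
        rw [map_sub, map_sub, map_zsmul, map_zsmul, smul_eq_mul, smul_eq_mul, h2', hk']; ring)
      have h4 : x - ((n : ℤ) * (k' - k)) • χ - (k - 2 * (n * (k' - k))) • χ -
          (k' - 2 * k + 2 * (n * (k' - k))) • χ = x - (((n + 1 : ℕ) : ℤ) * (k' - k)) • χ := by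
        rw [sub_sub, sub_sub, ← add_smul, ← add_smul]
        congr 2
        push_cast
        ring
      rwa [h4] at h3
  obtain ⟨hw, l, hl, hlm⟩ := hχ
  have hmax : ∀ ω, Wt 𝒜 ω → l ω ≤ l χ := fun ω hω => by
    by_cases h : ω = χ
    · rw [h]
    · exact (hlm ω hω h).le
  have hmin : ∀ ω, Wt 𝒜 ω → (-l) ω ≤ l χ := fun ω hω => by
    have := neg_max c.H l hl hmax ω hω
    rw [AddMonoidHom.neg_apply]
    linarith
  have a1 := (key 0).2 _ _ hmax
  have a2 := (key 0).2 _ _ hmin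
  have a3 := (key 3).2 _ _ hmax
  have a4 := (key 3).2 _ _ hmin
  simp only [Nat.cast_zero, zero_mul, zero_smul, sub_zero, AddMonoidHom.neg_apply] at a1 a2
  simp only [map_sub, map_zsmul, smul_eq_mul, AddMonoidHom.neg_apply] at a3 a4
  push_cast at a3 a4
  rcases lt_trichotomy (k' - k) 0 with h | h | h
  · nlinarith
  · omega
  · nlinarith

theorem vneg (c : RS 𝒜 N β E F) (hχ : Vx 𝒜 χ) : Vx 𝒜 (-χ) := c03_vx_neg c.H hχ

theorem beta_neg (c : RS 𝒜 N β E F) (hχ : Vx 𝒜 χ) {x : Fin r → ℤ} (hx : HL 𝒜 N β x) :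
    β (-χ) x = -β χ x := by
  obtain ⟨k, hk⟩ := hx.1 χ hχ
  obtain ⟨k', hk'⟩ := hx.1 (-χ) (c.vneg hχ)
  have h1 : k = -k' := by
    refine c.uniq hχ (b := β χ) (b' := -β (-χ)) (c.root χ hχ).two ?_
      (fun x k hx hk => c.hl_refl hχ hx hk) (fun x k hx hk => ?_) hx (by rw [hk, mul_comm]) ?_
    · rw [AddMonoidHom.neg_apply, ← (c.root _ (c.vneg hχ)).two, map_neg]
    · rw [AddMonoidHom.neg_apply] at hk
      have := c.hl_refl (c.vneg hχ) hx (k := -k) (by linarith)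
      simpa using this
    · rw [AddMonoidHom.neg_apply, hk']
      ring
  rw [hk, hk', h1]
  ring

theorem eq_or (c : RS 𝒜 N β E F) (hχ : Vx 𝒜 χ) (hω : Wt 𝒜 ω) (h1 : ω ≠ χ) (h2 : ω ≠ -χ) :
    β χ ω = N ∨ β χ ω = 0 ∨ β χ ω = -N := by
  obtain ⟨k, hk⟩ := (c.root χ hχ).int ω hω
  have hb := (c.root χ hχ).bd ω hω h1 h2
  have hN := c.N0
  rw [hk, abs_mul, abs_of_pos hN] at hb
  have h3 : |k| ≤ 1 := by
    by_contra h
    push Not at h
    nlinarith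
  obtain ⟨h4, h5⟩ := abs_le.1 h3
  rw [hk]
  have h6 : k = -1 ∨ k = 0 ∨ k = 1 := by omega
  rcases h6 with h | h | h <;> subst h
  · right; right; ring
  · right; left; ring
  · left; ring

theorem two_ne (c : RS 𝒜 N β E F) (hχ : Vx 𝒜 χ) (hψ : Vx 𝒜 ψ) : χ + χ ≠ ψ := by
  rintro rfl
  obtain ⟨hw, l, hl, hlm⟩ := hχ
  have h1 := hlm _ hψ.1 (fun h => by
    have : χ = 0 := by simpa using h
    rw [this, map_zero] at hl
    exact lt_irrefl _ hl)
  rw [map_add] at h1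
  linarith

theorem symm_aux (c : RS 𝒜 N β E F) (hχ : Vx 𝒜 χ) (hψ : Vx 𝒜 ψ) (h1 : ψ ≠ χ) (h2 : ψ ≠ -χ) {k : ℤ}
    (hk0 : k = 1 ∨ k = -1) (hk : β χ ψ = k * N) : β ψ χ = k * N := by
  have hN := c.N0
  have hv := reflect_vertex c.H c.N0 hχ (c.root χ hχ) hψ hk
  have hne1 : ψ - k • χ ≠ ψ := fun h => by
    have h3 : k • χ = 0 := by simpa using h
    rcases hk0 with rfl | rfl
    · exact c.ne_zero hχ (by simpa using h3)
    · exact c.ne_zero hχ (by simpa using h3)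
  have hne2 : ψ - k • χ ≠ -ψ := fun h => by
    have h3 : ψ + ψ = k • χ := by
      rw [sub_eq_iff_eq_add] at h
      rw [← sub_eq_zero]
      have : ψ = -ψ + k • χ := h
      calc ψ + ψ - k • χ = ψ - (-ψ + k • χ) := by abel
        _ = 0 := by rw [← this, sub_self]
    rcases hk0 with rfl | rfl
    · exact c.two_ne hψ hχ (by simpa using h3)
    · exact c.two_ne hψ (c.vneg hχ) (by simpa using h3)
  have hb := (c.root ψ hψ).bd _ hv.1 hne1 hne2
  rw [map_sub, map_zsmul, smul_eq_mul, (c.root ψ hψ).two] at hb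
  have h5 : χ ≠ ψ := fun h => h1 h.symm
  have h6 : χ ≠ -ψ := fun h => h2 (by rw [h, neg_neg])
  obtain ⟨h7, h8⟩ := abs_le.1 hb
  rcases c.eq_or hψ hχ.1 h5 h6 with h | h | h <;> rw [h] at h7 h8 ⊢ <;> rcases hk0 with rfl | rfl <;>
    linarith

theorem symm (c : RS 𝒜 N β E F) (hχ : Vx 𝒜 χ) (hψ : Vx 𝒜 ψ) : β χ ψ = β ψ χ := by
  by_cases h1 : ψ = χ
  · rw [h1]
  by_cases h2 : ψ = -χ
  · subst h2
    rw [map_neg, (c.root χ hχ).two]
    have := (c.root _ (c.vneg hχ)).two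
    rw [map_neg] at this
    linarith
  have h5 : χ ≠ ψ := fun h => h1 h.symm
  have h6 : χ ≠ -ψ := fun h => h2 (by rw [h, neg_neg])
  rcases c.eq_or hχ hψ.1 h1 h2 with h | h | h
  · have := c.symm_aux hχ hψ h1 h2 (k := 1) (Or.inl rfl) (by rw [h]; ring)
    rw [h, this]; ring
  · rcases c.eq_or hψ hχ.1 h5 h6 with h' | h' | h'
    · have := c.symm_aux hψ hχ h5 h6 (k := 1) (Or.inl rfl) (by rw [h']; ring)
      rw [h', this]; ring
    · rw [h, h']
    · have := c.symm_aux hψ hχ h5 h6 (k := -1) (Or.inr rfl) (by rw [h']; ring)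
      rw [h', this]; ring
  · have := c.symm_aux hχ hψ h1 h2 (k := -1) (Or.inr rfl) (by rw [h]; ring)
    rw [h, this]; ring

/-- The functional of a reflected vertex. -/
theorem beta_refl (c : RS 𝒜 N β E F) (hχ : Vx 𝒜 χ) (hψ : Vx 𝒜 ψ) {k : ℤ} (hk : β ψ χ = k * N)
    {x : Fin r → ℤ} (hx : HL 𝒜 N β x) : β (χ - k • ψ) x = β χ x - k * β ψ x := by
  have hv := reflect_vertex c.H c.N0 hψ (c.root ψ hψ) hχ hk
  have hk' : β χ ψ = k * N := by rw [c.symm hχ hψ, hk]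
  obtain ⟨a, ha⟩ := hx.1 χ hχ
  obtain ⟨b, hb⟩ := hx.1 ψ hψ
  obtain ⟨d, hd⟩ := hx.1 _ hv
  have h1 : d = a - k * b := by
    refine c.uniq hv (b := β (χ - k • ψ)) (b' := β χ - k • β ψ) (c.root _ hv).two ?_
      (fun x k hx hk => c.hl_refl hv hx hk) (fun x j hx hj => ?_) hx (by rw [hd, mul_comm]) ?_
    · simp only [AddMonoidHom.sub_apply, AddMonoidHom.smul_apply, smul_eq_mul, map_sub, map_zsmul,
        (c.root χ hχ).two, (c.root ψ hψ).two, hk, hk']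
      ring
    · simp only [AddMonoidHom.sub_apply, AddMonoidHom.smul_apply, smul_eq_mul] at hj
      obtain ⟨a, ha⟩ := hx.1 χ hχ
      obtain ⟨b, hb⟩ := hx.1 ψ hψ
      have hj' : j = a - k * b := by
        rw [ha, hb] at hj
        have : N * j = N * (a - k * b) := by linarith
        exact mul_left_cancel₀ c.N0.ne' this
      have e1 := c.hl_refl hψ hx (k := b) (by rw [hb, mul_comm])
      have e2 := c.hl_refl hχ e1 (k := a - k * b) (by
        rw [map_sub, map_zsmul, smul_eq_mul, ha, hk']; ring)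
      have e3 := c.hl_refl hψ e2 (k := -b - (a - k * b) * k) (by
        rw [map_sub, map_sub, map_zsmul, map_zsmul, smul_eq_mul, smul_eq_mul, hb, hk,
          (c.root ψ hψ).two]
        ring)
      have e4 : x - b • ψ - (a - k * b) • χ - (-b - (a - k * b) * k) • ψ =
          x - j • (χ - k • ψ) := by
        rw [hj']
        funext i
        simp only [Pi.sub_apply, Pi.smul_apply, smul_eq_mul]
        ring
      rwa [e4] at e3
    · simp only [AddMonoidHom.sub_apply, AddMonoidHom.smul_apply, smul_eq_mul, ha, hb]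
      ring
  rw [hd, ha, hb, h1]
  ring

end RS

end Vale.Agent.P280.H495
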