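import Vale.Agent.P280.H495.Int

/-! P280, stage 2: the structure of an interior weight, second part. -/

open DirectSum Vale.Agent.P280.T Vale.Agent.P280.H127

namespace Vale.Agent.P280.H495

open Vale.Agent.P280.N

variable {r : ℕ} {R : Type} [CommRing R] [IsDomain R] [Algebra ℂ R]
  {𝒜 : ℕ × (Fin r → ℤ) → Submodule ℂ R} [GradedAlgebra 𝒜]

omit [IsDomain R] [GradedAlgebra 𝒜] in
theorem Inter.not_vx {lam : Fin r → ℤ} (h : Inter 𝒜 lam) : ¬ Vx 𝒜 lam := by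
  rintro ⟨-, l, hl, hm⟩
  obtain ⟨ω, hω, h1⟩ := h.2 l hl
  by_cases h2 : ω = lam
  · rw [h2] at h1
    exact lt_irrefl _ h1
  · exact lt_asymm h1 (hm ω hω h2)

namespace RS

variable {N : ℤ} {β : (Fin r → ℤ) → ((Fin r → ℤ) →+ ℤ)} {E F : (Fin r → ℤ) → VF R}
  {χ ψ ω lam : Fin r → ℤ}

/-- The reflection. -/
def sg (N : ℤ) (β : (Fin r → ℤ) → ((Fin r → ℤ) →+ ℤ)) (ψ x : Fin r → ℤ) : Fin r → ℤ :=
  x - (β ψ x / N) • ψ

theorem sg_k (c : RS 𝒜 N β E F) (hψ : Vx 𝒜 ψ) (hω : Wt 𝒜 ω) : β ψ ω = (β ψ ω / N) * N :=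
  (Int.ediv_mul_cancel ((c.root ψ hψ).int ω hω)).symm

theorem sg_vx (c : RS 𝒜 N β E F) (hψ : Vx 𝒜 ψ) (hχ : Vx 𝒜 χ) : Vx 𝒜 (sg N β ψ χ) :=
  reflect_vertex c.H c.N0 hψ (c.root ψ hψ) hχ (c.sg_k hψ hχ.1)

theorem beta_sg (c : RS 𝒜 N β E F) (hψ : Vx 𝒜 ψ) (hω : Wt 𝒜 ω) :
    β ψ (sg N β ψ ω) = -β ψ ω := by
  rw [sg, map_sub, map_zsmul, smul_eq_mul, (c.root ψ hψ).two]
  have := c.sg_k hψ hω
  linarith

theorem sg_sg (c : RS 𝒜 N β E F) (hψ : Vx 𝒜 ψ) (hω : Wt 𝒜 ω) :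
    sg N β ψ (sg N β ψ ω) = ω := by
  rw [sg, c.beta_sg hψ hω, sg, Int.neg_ediv_of_dvd ((c.root ψ hψ).int ω hω), neg_smul]
  abel

/-- The vertices. -/
noncomputable def V (c : RS 𝒜 N β E F) : Finset (Fin r → ℤ) :=
  (show Set.Finite {χ | Vx 𝒜 χ} from (D01.wt_finite c.H).subset fun _ h => h.1).toFinset

theorem mem_V (c : RS 𝒜 N β E F) : χ ∈ c.V ↔ Vx 𝒜 χ := by
  rw [V, Set.Finite.mem_toFinset, Set.mem_setOf_eq]

theorem sum_id (c : RS 𝒜 N β E F) (hχ : Vx 𝒜 χ) (l : (Fin r → ℤ) →+ ℤ) :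
    2 * N * ∑ ψ ∈ c.V, l ψ * β χ ψ = (∑ ψ ∈ c.V, β χ ψ ^ 2) * l χ := by
  have h1 : ∑ ψ ∈ c.V, l ψ * β χ ψ = ∑ ψ ∈ c.V, l (sg N β χ ψ) * β χ (sg N β χ ψ) := by
    refine Finset.sum_nbij' (sg N β χ) (sg N β χ) (fun ψ hψ => ?_) (fun ψ hψ => ?_)
      (fun ψ hψ => ?_) (fun ψ hψ => ?_) fun ψ hψ => ?_
    · exact c.mem_V.2 (c.sg_vx hχ (c.mem_V.1 hψ))
    · exact c.mem_V.2 (c.sg_vx hχ (c.mem_V.1 hψ))
    · exact c.sg_sg hχ (c.mem_V.1 hψ).1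
    · exact c.sg_sg hχ (c.mem_V.1 hψ).1
    · rw [c.sg_sg hχ (c.mem_V.1 hψ).1]
  have h2 : N * ∑ ψ ∈ c.V, l (sg N β χ ψ) * β χ (sg N β χ ψ) =
      (∑ ψ ∈ c.V, β χ ψ ^ 2) * l χ - N * ∑ ψ ∈ c.V, l ψ * β χ ψ := by
    rw [Finset.mul_sum, Finset.mul_sum, Finset.sum_mul, ← Finset.sum_sub_distrib]
    refine Finset.sum_congr rfl fun ψ hψ => ?_
    have hw := (c.mem_V.1 hψ).1
    rw [c.beta_sg hχ hw, sg, map_sub, map_zsmul, smul_eq_mul]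
    have h3 := c.sg_k hχ hw
    generalize β χ ψ / N = k at h3
    rw [h3]
    ring
  have h3 : N * ∑ ψ ∈ c.V, l ψ * β χ ψ =
      (∑ ψ ∈ c.V, β χ ψ ^ 2) * l χ - N * ∑ ψ ∈ c.V, l ψ * β χ ψ := by
    conv_lhs => rw [h1]
    exact h2
  linarith

theorem sum_pos (c : RS 𝒜 N β E F) (hχ : Vx 𝒜 χ) : 0 < ∑ ψ ∈ c.V, β χ ψ ^ 2 := by
  refine Finset.sum_pos' (fun ψ _ => sq_nonneg _) ⟨χ, c.mem_V.2 hχ, ?_⟩
  rw [(c.root χ hχ).two]
  have := c.N0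
  positivity

theorem le_of_vx (c : RS 𝒜 N β E F) {l : (Fin r → ℤ) →+ ℤ} (h : ∀ χ, Vx 𝒜 χ → l χ ≤ N)
    (hω : Wt 𝒜 ω) : l ω ≤ N := by
  by_contra hc
  push Not at hc
  obtain ⟨μ, hμ, hm⟩ := D02.exists_max c.H l ⟨ω, hω⟩
  have h1 := hm ω hω
  have h2 := c.N0
  obtain ⟨χ, hχ, h3, -⟩ := max_at_vertex c.H l (a := l μ) (by linarith) hm ⟨μ, hμ, rfl⟩ 0
  have := h χ hχ
  linarith

/-- A bounded functional modulo the `β`. -/
theorem exists_small (c : RS 𝒜 N β E F) (l : (Fin r → ℤ) →+ ℤ) :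
    ∃ l' : (Fin r → ℤ) →+ ℤ, l' - l ∈ AddSubgroup.closure {g | ∃ χ, Vx 𝒜 χ ∧ g = β χ} ∧
      ∀ ω, Wt 𝒜 ω → |l' ω| ≤ N := by
  set G := AddSubgroup.closure {g | ∃ χ, Vx 𝒜 χ ∧ g = β χ} with hG
  obtain ⟨l', hl', hmin⟩ := WellFounded.has_min
    (measure fun l' : (Fin r → ℤ) →+ ℤ => (∑ ψ ∈ c.V, l' ψ ^ 2).toNat).wf
    {l' | l' - l ∈ G} ⟨l, by simp [G.zero_mem]⟩
  have hmin' : ∀ g : (Fin r → ℤ) →+ ℤ, g ∈ G →
      ∑ ψ ∈ c.V, l' ψ ^ 2 ≤ ∑ ψ ∈ c.V, (l' + g) ψ ^ 2 := fun g hg => by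
    have h1 := hmin (l' + g) (by
      change l' + g - l ∈ G
      rw [add_sub_right_comm]
      exact G.add_mem hl' hg)
    change ¬ ((∑ ψ ∈ c.V, (l' + g) ψ ^ 2).toNat < (∑ ψ ∈ c.V, l' ψ ^ 2).toNat) at h1
    have h2 : 0 ≤ ∑ ψ ∈ c.V, l' ψ ^ 2 := Finset.sum_nonneg fun _ _ => sq_nonneg _
    have h3 : 0 ≤ ∑ ψ ∈ c.V, (l' + g) ψ ^ 2 := Finset.sum_nonneg fun _ _ => sq_nonneg _
    omega
  have hv : ∀ χ, Vx 𝒜 χ → |l' χ| ≤ N := fun χ hχ => by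
    have hβ : β χ ∈ G := AddSubgroup.subset_closure ⟨χ, hχ, rfl⟩
    have h1 := hmin' _ hβ
    have h2 := hmin' _ (G.neg_mem hβ)
    have e1 : ∑ ψ ∈ c.V, (l' + β χ) ψ ^ 2 = ∑ ψ ∈ c.V, l' ψ ^ 2 +
        2 * ∑ ψ ∈ c.V, l' ψ * β χ ψ + ∑ ψ ∈ c.V, β χ ψ ^ 2 := by
      rw [Finset.mul_sum, ← Finset.sum_add_distrib, ← Finset.sum_add_distrib]
      refine Finset.sum_congr rfl fun ψ _ => ?_
      rw [AddMonoidHom.add_apply]
      ring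
    have e2 : ∑ ψ ∈ c.V, (l' + -β χ) ψ ^ 2 = ∑ ψ ∈ c.V, l' ψ ^ 2 -
        2 * ∑ ψ ∈ c.V, l' ψ * β χ ψ + ∑ ψ ∈ c.V, β χ ψ ^ 2 := by
      rw [Finset.mul_sum, ← Finset.sum_sub_distrib, ← Finset.sum_add_distrib]
      refine Finset.sum_congr rfl fun ψ _ => ?_
      rw [AddMonoidHom.add_apply, AddMonoidHom.neg_apply]
      ring
    have h3 := c.sum_id hχ l'
    have h4 := c.sum_pos hχ
    have h5 := c.N0
    rw [e1] at h1
    rw [e2] at h2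
    set A := ∑ ψ ∈ c.V, l' ψ * β χ ψ
    set B := ∑ ψ ∈ c.V, β χ ψ ^ 2
    have h6 : B * l' χ ≤ B * N := by nlinarith
    have h7 : B * (-N) ≤ B * l' χ := by nlinarith
    exact abs_le.2 ⟨le_of_mul_le_mul_left h7 h4, le_of_mul_le_mul_left h6 h4⟩
  refine ⟨l', hl', fun ω hω => abs_le.2 ⟨?_, c.le_of_vx (fun χ hχ => (abs_le.1 (hv χ hχ)).2) hω⟩⟩
  have := c.le_of_vx (l := -l') (fun χ hχ => by
    rw [AddMonoidHom.neg_apply]
    linarith [(abs_le.1 (hv χ hχ)).1]) hω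
  rw [AddMonoidHom.neg_apply] at this
  linarith

/-- An element of the weight lattice killed by all `β` is zero. -/
theorem eq_zero (c : RS 𝒜 N β E F) {y : Fin r → ℤ}
    (hy : y ∈ AddSubgroup.closure {ω | Wt 𝒜 ω}) (h : ∀ χ, Vx 𝒜 χ → β χ y = 0) : y = 0 := by
  obtain ⟨C, hC⟩ : ∃ C : ℤ, ∀ l' : (Fin r → ℤ) →+ ℤ, (∀ ω, Wt 𝒜 ω → |l' ω| ≤ N) → |l' y| ≤ C := by
    clear h
    induction hy using AddSubgroup.closure_induction with
    | mem x hx => exact ⟨N, fun l' h => h x hx⟩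
    | zero => exact ⟨0, fun l' _ => by simp⟩
    | add x x' _ _ h1 h2 =>
      obtain ⟨C1, h1⟩ := h1
      obtain ⟨C2, h2⟩ := h2
      exact ⟨C1 + C2, fun l' h => by
        rw [map_add]
        exact (abs_add_le _ _).trans (add_le_add (h1 l' h) (h2 l' h))⟩
    | neg x _ h1 =>
      obtain ⟨C1, h1⟩ := h1
      exact ⟨C1, fun l' h => by
        rw [map_neg, abs_neg]
        exact h1 l' h⟩
  have hall : ∀ l : (Fin r → ℤ) →+ ℤ, l y = 0 := fun l => by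
    by_contra hne
    obtain ⟨l', h1, h2⟩ := c.exists_small ((|C| + 1) • l)
    have h3 := hC l' h2
    have h4 : (l' - (|C| + 1) • l) y = 0 := by
      have h5 : AddSubgroup.closure {g : (Fin r → ℤ) →+ ℤ | ∃ χ, Vx 𝒜 χ ∧ g = β χ} ≤
          (AddMonoidHom.ker (AddMonoidHom.eval y) : AddSubgroup ((Fin r → ℤ) →+ ℤ)) := by
        rw [AddSubgroup.closure_le]
        rintro g ⟨χ, hχ, rfl⟩
        exact h χ hχ
      exact h5 h1
    rw [AddMonoidHom.sub_apply, AddMonoidHom.smul_apply, smul_eq_mul, sub_eq_zero] at h4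
    rw [h4, abs_mul] at h3
    have h5 : 1 ≤ |l y| := Int.one_le_abs hne
    have h6 : |(|C| + 1)| = |C| + 1 := abs_of_pos (by positivity)
    rw [h6] at h3
    have h7 := le_abs_self C
    have h8 := abs_nonneg C
    nlinarith
  exact funext fun i => hall (Pi.evalAddMonoidHom (fun _ : Fin r => ℤ) i)

theorem beta_neg_wt (c : RS 𝒜 N β E F) (hχ : Vx 𝒜 χ) (hω : Wt 𝒜 ω) : β (-χ) ω = -β χ ω :=
  c.beta_neg hχ (c.hl_wt hω)

theorem lam_vals (c : RS 𝒜 N β E F) (hl : Inter 𝒜 lam) (hψ : Vx 𝒜 ψ) :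
    β ψ lam = N ∨ β ψ lam = 0 ∨ β ψ lam = -N :=
  c.eq_or hψ hl.1 (fun h => hl.not_vx (h ▸ hψ)) fun h => hl.not_vx (h ▸ c.vneg hψ)

/-- Two vertices whose functionals are `N` at an interior weight. -/
theorem pair (c : RS 𝒜 N β E F) (hl : Inter 𝒜 lam) (hχ : Vx 𝒜 χ) (hψ : Vx 𝒜 ψ) (hne : ψ ≠ χ)
    (h1 : β χ lam = N) (h2 : β ψ lam = N) : β χ ψ = N := by
  have hN := c.N0
  have hne2 : ψ ≠ -χ := fun h => by
    rw [h, c.beta_neg_wt hχ hl.1, h1] at h2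
    linarith
  by_contra hcon
  have h3 : β χ ψ ≤ 0 := by
    rcases c.eq_or hχ hψ.1 hne hne2 with h | h | h
    · exact absurd h hcon
    · exact h.le
    · linarith
  have h4 : β ψ χ ≤ 0 := by rwa [← c.symm hχ hψ]
  obtain ⟨ω, hω, h5⟩ := hl.2 (β χ + β ψ) (by
    rw [AddMonoidHom.add_apply, h1, h2]
    linarith)
  rw [AddMonoidHom.add_apply, AddMonoidHom.add_apply, h1, h2] at h5
  by_cases a1 : ω = χ
  · rw [a1, (c.root χ hχ).two] at h5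
    linarith
  by_cases a2 : ω = ψ
  · rw [a2, (c.root ψ hψ).two] at h5
    linarith
  have h6 : β χ ω ≤ N := by
    by_cases a3 : ω = -χ
    · rw [a3, map_neg, (c.root χ hχ).two]
      linarith
    · exact (abs_le.1 ((c.root χ hχ).bd ω hω a1 a3)).2
  have h7 : β ψ ω ≤ N := by
    by_cases a3 : ω = -ψ
    · rw [a3, map_neg, (c.root ψ hψ).two]
      linarith
    · exact (abs_le.1 ((c.root ψ hψ).bd ω hω a2 a3)).2
  linarith

open Classical in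
/-- The vertices whose functional is `N` at `lam`. -/
noncomputable def SE (c : RS 𝒜 N β E F) (lam : Fin r → ℤ) : Finset (Fin r → ℤ) :=
  c.V.filter fun χ => β χ lam = N

theorem mem_SE (c : RS 𝒜 N β E F) : χ ∈ c.SE lam ↔ Vx 𝒜 χ ∧ β χ lam = N := by
  rw [SE, Finset.mem_filter, c.mem_V]

/-- `(n + 1) lam` is the sum of the `n` vertices whose functional is `N` at `lam`. -/
theorem sum_SE (c : RS 𝒜 N β E F) (hl : Inter 𝒜 lam) :
    ∑ χ ∈ c.SE lam, χ = (((c.SE lam).card : ℤ) + 1) • lam := by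
  have hpos : ∀ ψ, Vx 𝒜 ψ → β ψ lam = N →
      β ψ (∑ χ ∈ c.SE lam, χ) = (((c.SE lam).card : ℤ) + 1) * N := fun ψ hψ h1 => by
    classical
    have hm : ψ ∈ c.SE lam := c.mem_SE.2 ⟨hψ, h1⟩
    rw [map_sum, ← Finset.add_sum_erase _ _ hm, (c.root ψ hψ).two]
    rw [Finset.sum_congr rfl (g := fun _ => N) fun χ hχ => by
      rw [Finset.mem_erase] at hχ
      obtain ⟨hχv, hχl⟩ := c.mem_SE.1 hχ.2
      exact c.pair hl hψ hχv hχ.1 h1 hχl]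
    rw [Finset.sum_const, Finset.card_erase_of_mem hm, nsmul_eq_mul]
    have h2 : 1 ≤ (c.SE lam).card := Finset.card_pos.2 ⟨ψ, hm⟩
    rw [Nat.cast_sub h2]
    push_cast
    ring
  have key : ∑ χ ∈ c.SE lam, χ - (((c.SE lam).card : ℤ) + 1) • lam = 0 := by
    refine c.eq_zero ?_ fun ψ hψ => ?_
    · refine AddSubgroup.sub_mem _ (AddSubgroup.sum_mem _ fun χ hχ => ?_)
        (AddSubgroup.zsmul_mem _ (AddSubgroup.subset_closure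
          (show lam ∈ {ω | Wt 𝒜 ω} from hl.1)) _)
      exact AddSubgroup.subset_closure (show χ ∈ {ω | Wt 𝒜 ω} from (c.mem_SE.1 hχ).1.1)
    · rcases c.lam_vals hl hψ with h | h | h
      · rw [map_sub, map_zsmul, smul_eq_mul, hpos ψ hψ h, h, sub_self]
      · rw [map_sub, map_zsmul, h, smul_zero, sub_zero, map_sum]
        have h1 : ∑ χ ∈ c.SE lam, β ψ χ = ∑ χ ∈ c.SE lam, β ψ (sg N β ψ χ) := by
          have hmem : ∀ χ ∈ c.SE lam, sg N β ψ χ ∈ c.SE lam := fun χ hχ => by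
            obtain ⟨hv, hχl⟩ := c.mem_SE.1 hχ
            refine c.mem_SE.2 ⟨c.sg_vx hψ hv, ?_⟩
            rw [sg, c.beta_refl hv hψ (c.sg_k hψ hv.1) (c.hl_wt hl.1), hχl, h, mul_zero, sub_zero]
          refine Finset.sum_nbij' (sg N β ψ) (sg N β ψ) hmem hmem (fun χ hχ => ?_)
            (fun χ hχ => ?_) fun χ hχ => ?_
          · exact c.sg_sg hψ (c.mem_SE.1 hχ).1.1
          · exact c.sg_sg hψ (c.mem_SE.1 hχ).1.1
          · rw [c.sg_sg hψ (c.mem_SE.1 hχ).1.1]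
        have h2 : ∑ χ ∈ c.SE lam, β ψ (sg N β ψ χ) = -∑ χ ∈ c.SE lam, β ψ χ := by
          rw [← Finset.sum_neg_distrib]
          exact Finset.sum_congr rfl fun χ hχ => c.beta_sg hψ (c.mem_SE.1 hχ).1.1
        linarith
      · have h1 : β (-ψ) lam = N := by rw [c.beta_neg_wt hψ hl.1, h, neg_neg]
        have h2 := hpos (-ψ) (c.vneg hψ) h1
        rw [map_sum] at h2
        rw [Finset.sum_congr rfl fun χ hχ => c.beta_neg_wt hψ (c.mem_SE.1 hχ).1.1,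
          Finset.sum_neg_distrib] at h2
        rw [map_sub, map_zsmul, h, map_sum, smul_eq_mul]
        linarith
  exact sub_eq_zero.1 key

theorem SE_nonempty (c : RS 𝒜 N β E F) (hl : Inter 𝒜 lam) : (c.SE lam).Nonempty := by
  by_contra h
  rw [Finset.not_nonempty_iff_eq_empty] at h
  have h1 := c.sum_SE hl
  rw [h] at h1
  simp only [Finset.sum_empty, Finset.card_empty, Nat.cast_zero, zero_add, one_smul] at h1
  exact c03_wt_ne_zero c.H hl.1 h1.symm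

end RS

end Vale.Agent.P280.H495
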