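import Vale.Agent.P280.H490.Rev

/-! P280, stage 2: transport along the curve for classes with two members. -/

open DirectSum Vale.Agent.P280.T Vale.Agent.P280.H127

namespace Vale.Agent.P280.H495

open Vale.Agent.P280.N Vale.Agent.P280.H490

variable {r : ℕ} {R : Type} [CommRing R] [IsDomain R] [Algebra ℂ R]
  {𝒜 : ℕ × (Fin r → ℤ) → Submodule ℂ R} [GradedAlgebra 𝒜]

/-- A global field of weight `lam`, not zero along the curve from `y` to `y'`, is not zero at `y`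
if `lam + a` is a weight at `y'` and no `lam + (k + 1) a` with `1 ≤ k` is a weight at `y`. -/
theorem curve_u2 (H : Hyp 𝒜) {y y' : FP 𝒜} {a : Fin r → ℤ} {n : ℕ}
    {φ : R →ₐ[ℂ] Polynomial ℂ} (hφ : Curve y y' a n φ) {lam : Fin r → ℤ} {D : VF R}
    (hD : Glob D) (hDv : HV 𝒜 lam D) (hl : ∀ k : ℤ, lam ≠ k • a) (hpi : y'.Pi (lam + a))
    (hk : ∀ k : ℕ, y.Pi (lam + (k + 1) • a) → k = 0)
    (hne : ∃ h g : R, D (iK h) = iK g ∧ φ g ≠ 0) : ¬ ValV y.q D 0 := by
  obtain ⟨E, rfl, hE⟩ := hD.exists_hder hDv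
  have inj : Function.Injective (algebraMap R (FractionRing R)) := IsFractionRing.injective R _
  obtain ⟨h0, g, hg, hg0⟩ := hne
  have hEg : E h0 = g := by
    rw [toVF_iK] at hg
    exact inj hg
  subst hEg
  have hval : ValV y.q (toVF E) (y.q.toLinearMap.comp (E : R →ₗ[ℂ] R)) := by
    intro h
    rw [toVF_iK]
    exact Val.iK (E h)
  intro hv0
  have hz : ∀ h, y.q (E h) = 0 := fun h => LinearMap.congr_fun (hval.unique hv0) h
  have hc0 : ∀ h, (φ (E h)).coeff 0 = 0 := fun h => by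
    rw [Polynomial.coeff_zero_eq_eval_zero, hφ.ev, hz]
  let ε : R →ₗ[ℂ] Polynomial ℂ :=
    { toFun := fun h => (φ (E h)).divX
      map_add' := fun x z => by rw [map_add, map_add, Polynomial.divX_add]
      map_smul' := fun c x => by
        rw [Derivation.map_smul, map_smul, Polynomial.smul_eq_C_mul, Polynomial.divX_C_mul,
          RingHom.id_apply, Polynomial.smul_eq_C_mul] }
  have hεX : ∀ h, ε h * Polynomial.X = φ (E h) := fun h => by
    have h1 := Polynomial.divX_mul_X_add (φ (E h))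
    rw [hc0, Polynomial.C_0, add_zero] at h1
    exact h1
  have hε : ∀ x z, ε (x * z) = φ x * ε z + φ z * ε x := fun x z => by
    refine mul_right_cancel₀ Polynomial.X_ne_zero ?_
    rw [hεX, add_mul, mul_assoc, mul_assoc, hεX, hεX, Derivation.leibniz, map_add, smul_eq_mul,
      smul_eq_mul, map_mul, map_mul]
  have hhom : ∀ d m, ∀ h ∈ 𝒜 (d, m), φ (E h) ≠ 0 → ∃ i : ℕ, i ≤ d * n ∧
      m = d • y.ν + i • a + lam ∧ ∃ c : ℂ, φ (E h) = Polynomial.C c * Polynomial.X ^ i := by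
    intro d m h hh hne
    obtain ⟨i, hi, hm, hc⟩ := hφ.hom d (m - lam) (E h) (hE d m h hh) hne
    exact ⟨i, hi, by rw [← hm]; abel, hc⟩
  have hdeg : ∀ d m, ∀ h ∈ 𝒜 (d, m), ε h ≠ 0 → ∃ i : ℕ, m = d • y.ν + i • a + (lam + a) ∧
        ∃ c : ℂ, ε h = Polynomial.C c * Polynomial.X ^ i := by
    intro d m h hh hne
    have h1 : φ (E h) ≠ 0 := fun h1 => by
      apply hne
      have h2 := hεX h
      rw [h1] at h2
      exact (mul_eq_zero.1 h2).resolve_right Polynomial.X_ne_zero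
    obtain ⟨i, -, hm, c, hc⟩ := hhom d m h hh h1
    obtain ⟨j, rfl⟩ : ∃ j, i = j + 1 := by
      rcases Nat.eq_zero_or_pos i with hi | hi
      · exfalso
        have h2 := hc0 h
        rw [hc, hi, pow_zero, mul_one, Polynomial.coeff_C_zero] at h2
        rw [hc, h2, Polynomial.C_0, zero_mul] at h1
        exact h1 rfl
      · exact ⟨i - 1, (Nat.sub_add_cancel hi).symm⟩
    refine ⟨j, by rw [hm, add_smul, one_smul]; abel, c, ?_⟩
    refine mul_right_cancel₀ Polynomial.X_ne_zero ?_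
    rw [hεX, hc, pow_succ]
    ring
  obtain ⟨t, ht, htw, htne⟩ := hpi
  obtain ⟨δ, hδ, hdegδ, htop⟩ := exists_lift H hφ ht htw
  obtain ⟨c, hc⟩ := der_unique H hφ (lam := lam + a)
    (fun k hk => hl (k - 1) (by rw [sub_smul, one_smul, ← hk, add_sub_cancel_right])) (k0 := 0)
    (fun k hk' => hk k (by
      rwa [add_smul, one_smul, add_comm (k • a) a, ← add_assoc])) (δ := δ) (δ' := ε) hδ hε
    (by
      intro d m h hh hne
      obtain ⟨i, -, hi, hc⟩ := hdegδ d m h hh hne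
      exact ⟨i, hi, hc⟩) hdeg
    ⟨h0, fun h1 => hg0 (by rw [← hεX, h1, zero_mul])⟩
  obtain ⟨d, m, h, hh, hne⟩ := htne 0
  apply hne
  rw [← htop d m h hh, hc h, Polynomial.coeff_C_mul]
  have h1 : (ε h).coeff (d * n) = (φ (E h)).coeff (d * n + 1) := Polynomial.coeff_divX
  rw [h1]
  by_cases h2 : φ (E h) = 0
  · rw [h2, Polynomial.coeff_zero, mul_zero, zero_mul, zero_mul]
  · obtain ⟨i, hi, -, b, hb⟩ := hhom d m h hh h2
    rw [hb, Polynomial.coeff_C_mul_X_pow, if_neg (by omega), mul_zero, zero_mul, zero_mul]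

/-- The field is not zero along the reversed curve. -/
theorem ne_rev {y y' : FP 𝒜} {a : Fin r → ℤ} {n : ℕ} {φ φ' : R →ₐ[ℂ] Polynomial ℂ}
    (hφ : Curve y y' a n φ)
    (hrel : ∀ d m, ∀ h ∈ 𝒜 (d, m), ∀ i : ℕ, i ≤ d * n → ∀ c : ℂ,
        φ h = Polynomial.C c * Polynomial.X ^ i →
        φ' h = Polynomial.C c * Polynomial.X ^ (d * n - i))
    {lam : Fin r → ℤ} {D : VF R} (hD : Glob D) (hDv : HV 𝒜 lam D)
    (hne : ∃ h g : R, D (iK h) = iK g ∧ φ g ≠ 0) : ∃ h g : R, D (iK h) = iK g ∧ φ' g ≠ 0 := by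
  obtain ⟨E, rfl, hE⟩ := hD.exists_hder hDv
  have inj : Function.Injective (algebraMap R (FractionRing R)) := IsFractionRing.injective R _
  obtain ⟨h0, g, hg, hg0⟩ := hne
  have hEg : E h0 = g := by
    rw [toVF_iK] at hg
    exact inj hg
  subst hEg
  by_contra hcon
  push Not at hcon
  have h1 : φ.toLinearMap.comp (E : R →ₗ[ℂ] R) = 0 := by
    apply linearMap_ext_graded 𝒜
    rintro ⟨d, m⟩ h hh
    have h2 := hcon h (E h) (toVF_iK E h)
    have h3 := hE d m h hh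
    obtain ⟨i, hi, -, c, hc⟩ := form hφ h3
    rw [hrel d _ _ h3 i hi c hc] at h2
    have h4 : Polynomial.C c = 0 := (mul_eq_zero.1 h2).resolve_right
      (pow_ne_zero _ Polynomial.X_ne_zero)
    change φ (E h) = 0
    rw [hc, h4, zero_mul]
  exact hg0 (LinearMap.congr_fun h1 h0)

/-- The mirror of `curve_u2`, at the other end. -/
theorem curve_u2' (H : Hyp 𝒜) {y y' : FP 𝒜} {a : Fin r → ℤ} {n : ℕ}
    {φ : R →ₐ[ℂ] Polynomial ℂ} (hφ : Curve y y' a n φ) {lam : Fin r → ℤ} {D : VF R}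
    (hD : Glob D) (hDv : HV 𝒜 lam D) (hl : ∀ k : ℤ, lam ≠ k • a) (hpi : y.Pi (lam - a))
    (hk : ∀ k : ℕ, y'.Pi (lam - (k + 1) • a) → k = 0)
    (hne : ∃ h g : R, D (iK h) = iK g ∧ φ g ≠ 0) : ¬ ValV y'.q D 0 := by
  obtain ⟨φ', hφ', hrel⟩ := exists_rev H hφ
  exact curve_u2 H hφ' hD hDv (fun k hk => hl (-k) (by rw [hk, neg_smul, smul_neg]))
    (by rwa [← sub_eq_add_neg]) (fun k hk' => hk k (by rwa [smul_neg, ← sub_eq_add_neg] at hk'))
    (ne_rev hφ hrel hD hDv hne)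

/-- A field which is not zero at an end is not zero along the curve. -/
theorem ne_of_end {y y' : FP 𝒜} {a : Fin r → ℤ} {n : ℕ} {φ : R →ₐ[ℂ] Polynomial ℂ}
    (hφ : Curve y y' a n φ) {lam : Fin r → ℤ} {D : VF R} (hD : Glob D) (hDv : HV 𝒜 lam D)
    (h : ¬ ValV y.q D 0 ∨ ¬ ValV y'.q D 0) : ∃ h g : R, D (iK h) = iK g ∧ φ g ≠ 0 := by
  obtain ⟨E, rfl, hE⟩ := hD.exists_hder hDv
  by_contra hcon
  push Not at hcon
  have h1 : ∀ h, φ (E h) = 0 := fun h => hcon h (E h) (toVF_iK E h)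
  rcases h with h | h
  · apply h
    intro x
    rw [toVF_iK]
    have h2 : y.q (E x) = 0 := by rw [← hφ.ev, h1, Polynomial.eval_zero]
    have h3 := Val.iK (q := y.q) (E x)
    rwa [h2] at h3
  · apply h
    have h4 : y'.q.toLinearMap.comp (E : R →ₗ[ℂ] R) = 0 := by
      apply linearMap_ext_graded 𝒜
      rintro ⟨d, m⟩ x hx
      change y'.q (E x) = 0
      rw [← hφ.ev' d _ _ (hE d m x hx), h1, Polynomial.coeff_zero]
    intro x
    rw [toVF_iK]
    have h2 : y'.q (E x) = 0 := LinearMap.congr_fun h4 x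
    have h3 := Val.iK (q := y'.q) (E x)
    rwa [h2] at h3

end Vale.Agent.P280.H495
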