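import Vale.Agent.P280.H495.U2

/-! P280, stage 2: derivations along the curve with two possible orders. -/

open DirectSum Vale.Agent.P280.T Vale.Agent.P280.H127

namespace Vale.Agent.P280.H495

open Vale.Agent.P280.N Vale.Agent.P280.H490

variable {r : ℕ} {R : Type} [CommRing R] [IsDomain R] [Algebra ℂ R]
  {𝒜 : ℕ × (Fin r → ℤ) → Submodule ℂ R} [GradedAlgebra 𝒜]

theorem linearMap_ext_graded' (𝒜 : ℕ × (Fin r → ℤ) → Submodule ℂ R) [GradedAlgebra 𝒜]
    {f g : R →ₗ[ℂ] ℂ} (h : ∀ d m, ∀ x ∈ 𝒜 (d, m), f x = g x) : f = g :=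
  linearMap_ext_graded 𝒜 fun i x hx => h i.1 i.2 x hx

/-- A derivation of weight `lam` along the curve. -/
structure DA (y : FP 𝒜) (a lam : Fin r → ℤ) (φ : R →ₐ[ℂ] Polynomial ℂ)
    (δ : R →ₗ[ℂ] Polynomial ℂ) : Prop where
  der : ∀ x z, δ (x * z) = φ x * δ z + φ z * δ x
  deg : ∀ d m, ∀ h ∈ 𝒜 (d, m), δ h ≠ 0 → ∃ i : ℕ, m = d • y.ν + i • a + lam ∧
        ∃ c : ℂ, δ h = Polynomial.C c * Polynomial.X ^ i

variable {y y' : FP 𝒜} {a lam : Fin r → ℤ} {n : ℕ} {φ : R →ₐ[ℂ] Polynomial ℂ}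

theorem DA.sub (ha : a ≠ 0) {δ δ' : R →ₗ[ℂ] Polynomial ℂ} (h : DA y a lam φ δ)
    (h' : DA y a lam φ δ') (b : ℂ) : DA y a lam φ (δ - b • δ') := by
  have hε : ∀ x, (δ - b • δ') x = δ x - Polynomial.C b * δ' x := fun x => by
    rw [← Polynomial.smul_eq_C_mul]
    rfl
  constructor
  · intro x z
    rw [hε, hε, hε, h.der, h'.der]
    ring
  · intro d m x hh hne
    rw [hε] at hne ⊢
    by_cases h1 : δ x = 0
    · by_cases h2 : δ' x = 0
      · exfalso
        apply hne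
        rw [h1, h2, mul_zero, sub_zero]
      · obtain ⟨i, hi, e, he⟩ := h'.deg d m x hh h2
        refine ⟨i, hi, -(b * e), ?_⟩
        rw [h1, he, Polynomial.C_neg, Polynomial.C_mul]
        ring
    · obtain ⟨i, hi, e, he⟩ := h.deg d m x hh h1
      by_cases h2 : δ' x = 0
      · refine ⟨i, hi, e, ?_⟩
        rw [h2, mul_zero, sub_zero, he]
      · obtain ⟨i', hi', e', he'⟩ := h'.deg d m x hh h2
        have hii : i = i' := by
          rw [hi] at hi'
          exact nsmul_inj ha (add_left_cancel (add_right_cancel hi'))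
        refine ⟨i, hi, e - b * e', ?_⟩
        rw [he, he', hii, Polynomial.C_sub, Polynomial.C_mul]
        ring

/-- One step of the reduction of a derivation along the curve by another one. -/
theorem DA.step (H : Hyp 𝒜) (hφ : Curve y y' a n φ) (hl : ∀ k : ℤ, lam ≠ k • a)
    {δ δ' : R →ₗ[ℂ] Polynomial ℂ} (h : DA y a lam φ δ) (h' : DA y a lam φ δ') {j : ℕ}
    (hmin : ∀ x, ∀ i < j, (δ x).coeff i = 0) (hmin' : ∀ x, ∀ i < j, (δ' x).coeff i = 0)
    (h1 : ∃ x, (δ' x).coeff j ≠ 0) :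
    ∃ b : ℂ, ∀ x, ∀ i < j + 1, ((δ - b • δ') x).coeff i = 0 := by
  obtain ⟨x1, hx1⟩ := h1
  obtain ⟨k, hjk, hmink, -, hpi⟩ := along_pi (a := a) (μ := lam) (j := j) hφ.ev h'.der h'.deg hl
    ⟨x1, fun h0 => hx1 (by rw [h0, Polynomial.coeff_zero])⟩ hmin'
  have hkj : k = j := by
    by_contra hkj
    exact hx1 (hmink x1 j (by omega))
  subst hkj
  have ht := along_tangent hφ.ev h.der hmin
  have ht' := along_tangent hφ.ev h'.der hmin'
  have hw := along_weight (y := y) (a := a) (μ := lam) h.deg k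
  have hw' := along_weight (y := y) (a := a) (μ := lam) h'.deg k
  obtain ⟨c, c', hcc, hlin⟩ := H.mult y.q y.ν (lam + (k : ℤ) • a) y.nv y.fix hpi _ _ ht hw ht' hw'
  have hc : c ≠ 0 := by
    intro hc
    subst hc
    rcases hcc with h | h
    · exact h rfl
    · have h3 := hlin x1
      rw [zero_mul, zero_add, LinearMap.comp_apply, Polynomial.lcoeff_apply] at h3
      exact hx1 ((mul_eq_zero.1 h3).resolve_left h)
  refine ⟨-(c' / c), fun x i hi => ?_⟩
  have hε : (δ - (-(c' / c)) • δ') x = δ x - Polynomial.C (-(c' / c)) * δ' x := by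
    rw [← Polynomial.smul_eq_C_mul]
    rfl
  rw [hε, Polynomial.coeff_sub, Polynomial.coeff_C_mul]
  rcases Nat.lt_succ_iff_lt_or_eq.1 hi with h1 | h1
  · rw [hmin x i h1, hmin' x i h1, mul_zero, sub_zero]
  · subst h1
    have h3 := hlin x
    simp only [LinearMap.comp_apply, Polynomial.lcoeff_apply] at h3
    field_simp
    linear_combination h3

/-- **Two possible orders.** -/
theorem DA.span2 (H : Hyp 𝒜) (hφ : Curve y y' a n φ) (hl : ∀ k : ℤ, lam ≠ k • a)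
    (hk : ∀ k : ℕ, y.Pi (lam + k • a) → k = 0 ∨ k = 1)
    {δ δ₁ δ₂ : R →ₗ[ℂ] Polynomial ℂ} (h : DA y a lam φ δ) (h1 : DA y a lam φ δ₁)
    (h2 : DA y a lam φ δ₂) (h10 : ∃ x, (δ₁ x).coeff 0 ≠ 0) (h20 : ∀ x, (δ₂ x).coeff 0 = 0)
    (h2n : ∃ x, δ₂ x ≠ 0) :
    ∃ α β : ℂ, ∀ x, δ x = Polynomial.C α * δ₁ x + Polynomial.C β * δ₂ x := by
  have ha := ne_zero_of_curve H hφ
  have h20' : ∀ x, ∀ i < 1, (δ₂ x).coeff i = 0 := fun x i hi => by
    obtain rfl : i = 0 := by omega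
    exact h20 x
  obtain ⟨k, hk1, -, ⟨x2, hx2⟩, hpi⟩ := along_pi (a := a) (μ := lam) (j := 1) hφ.ev h2.der h2.deg hl
    h2n h20'
  have hk2 : k = 1 := by
    rcases hk k (by rwa [natCast_zsmul] at hpi) with h | h <;> omega
  subst hk2
  obtain ⟨α, hα⟩ := DA.step H hφ hl h h1 (j := 0) (fun x i hi => absurd hi (Nat.not_lt_zero i))
    (fun x i hi => absurd hi (Nat.not_lt_zero i)) h10
  obtain ⟨β, hβ⟩ := DA.step H hφ hl (h.sub ha h1 α) h2 (j := 1) hα h20' ⟨x2, hx2⟩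
  refine ⟨α, β, ?_⟩
  have hzero : ∀ x, (δ - α • δ₁ - β • δ₂) x = 0 := by
    by_contra hcon
    push Not at hcon
    obtain ⟨l, hl1, -, -, hpi'⟩ := along_pi (a := a) (μ := lam) (j := 2) hφ.ev
      ((h.sub ha h1 α).sub ha h2 β).der ((h.sub ha h1 α).sub ha h2 β).deg hl hcon hβ
    rcases hk l (by rwa [natCast_zsmul] at hpi') with h | h <;> omega
  intro x
  have h3 := hzero x
  rw [LinearMap.sub_apply, LinearMap.sub_apply, LinearMap.smul_apply, LinearMap.smul_apply,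
    Polynomial.smul_eq_C_mul, Polynomial.smul_eq_C_mul] at h3
  linear_combination h3

/-- A field of weight `lam` along the curve. -/
theorem DA.of_field (hφ : Curve y y' a n φ) {E : Derivation ℂ R R}
    (hE : H93.IsHField 𝒜 lam E) : DA y a lam φ (φ.toLinearMap.comp (E : R →ₗ[ℂ] R)) := by
  constructor
  · intro x z
    simp only [LinearMap.comp_apply, AlgHom.toLinearMap_apply, Derivation.coeFn_coe,
      Derivation.leibniz, smul_eq_mul, map_add, map_mul]
  · intro d m h hh hne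
    simp only [LinearMap.comp_apply, AlgHom.toLinearMap_apply, Derivation.coeFn_coe] at hne ⊢
    obtain ⟨i, -, hm, hc⟩ := hφ.hom d (m - lam) (E h) (hE d m h hh) hne
    exact ⟨i, by rw [← hm]; abel, hc⟩

/-- A field of weight `lam + a`, times the coordinate, along the curve of direction `a`. -/
theorem DA.of_mul (hφ : Curve y y' a n φ) {E : Derivation ℂ R R}
    (hE : H93.IsHField 𝒜 (lam + a) E) : DA y a lam φ
      ((LinearMap.mulLeft ℂ (Polynomial.X : Polynomial ℂ)).comp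
        (φ.toLinearMap.comp (E : R →ₗ[ℂ] R))) := by
  constructor
  · intro x z
    simp only [LinearMap.comp_apply, AlgHom.toLinearMap_apply, Derivation.coeFn_coe,
      Derivation.leibniz, smul_eq_mul, map_add, map_mul, LinearMap.mulLeft_apply]
    ring
  · intro d m h hh hne
    simp only [LinearMap.comp_apply, AlgHom.toLinearMap_apply, Derivation.coeFn_coe,
      LinearMap.mulLeft_apply] at hne ⊢
    obtain ⟨i, -, hm, c, hc⟩ := hφ.hom d (m - (lam + a)) (E h) (hE d m h hh)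
      (fun h0 => hne (by rw [h0, mul_zero]))
    refine ⟨i + 1, ?_, c, ?_⟩
    · have h1 : m = d • y.ν + i • a + (lam + a) := by
        rw [← hm]
        abel
      rw [h1, add_smul, one_smul]
      abel
    · rw [hc, pow_succ]
      ring

theorem valV_toVF (q : R →ₐ[ℂ] ℂ) (E : Derivation ℂ R R) :
    ValV q (toVF E) (q.toLinearMap.comp (E : R →ₗ[ℂ] R)) := by
  intro h
  rw [toVF_iK]
  exact Val.iK (E h)

/-- **Two fields and two possible orders**: every vector of weight `lam` at `y` is the value of a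
global field if there are a field not vanishing at `y'` and a field vanishing at `y'`, not along
the curve. -/
theorem real_u3 (H : Hyp 𝒜) (hφ : Curve y y' a n φ) (hl : ∀ k : ℤ, lam ≠ k • a)
    (hk : ∀ k : ℕ, y'.Pi (lam - k • a) → k = 0 ∨ k = 1) {D₁ D₂ : VF R}
    (hD₁ : Glob D₁) (hv₁ : HV 𝒜 lam D₁) (h₁ : ¬ ValV y'.q D₁ 0)
    (hD₂ : Glob D₂) (hv₂ : HV 𝒜 lam D₂) (h₂ : ValV y'.q D₂ 0)
    (hne : ∃ h g : R, D₂ (iK h) = iK g ∧ φ g ≠ 0)
    {t : R →ₗ[ℂ] ℂ} (ht : IsTangent y.q t) (htw : HasWeight 𝒜 y.ν lam t) :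
    ∃ D : VF R, Glob D ∧ HV 𝒜 lam D ∧ ValV y.q D t := by
  obtain ⟨φ', hφ', hrel⟩ := exists_rev H hφ
  obtain ⟨x2, g, hg, hg0⟩ := ne_rev hφ hrel hD₂ hv₂ hne
  obtain ⟨E₁, rfl, hE₁⟩ := hD₁.exists_hder hv₁
  obtain ⟨E₂, rfl, hE₂⟩ := hD₂.exists_hder hv₂
  have inj : Function.Injective (algebraMap R (FractionRing R)) := IsFractionRing.injective R _
  have hEg : E₂ x2 = g := by
    rw [toVF_iK] at hg
    exact inj hg
  subst hEg
  obtain ⟨δ, hδ, hdeg, htop⟩ := exists_lift H hφ' ht htw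
  have hz : ∀ x, y'.q (E₂ x) = 0 :=
    fun x => LinearMap.congr_fun ((valV_toVF y'.q E₂).unique h₂) x
  obtain ⟨x1, hx1⟩ : ∃ x, y'.q (E₁ x) ≠ 0 := by
    by_contra hcon
    push Not at hcon
    apply h₁
    have h3 := valV_toVF y'.q E₁
    have h4 : y'.q.toLinearMap.comp (E₁ : R →ₗ[ℂ] R) = 0 := LinearMap.ext hcon
    rwa [h4] at h3
  obtain ⟨α, β, hαβ⟩ := DA.span2 H hφ' (fun k hk => hl (-k) (by rw [hk, neg_smul, smul_neg]))
    (fun k hk' => hk k (by rwa [smul_neg, ← sub_eq_add_neg] at hk'))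
    (δ := δ) ⟨hδ, fun d m h hh hne => by
      obtain ⟨i, -, hi, hc⟩ := hdeg d m h hh hne
      exact ⟨i, hi, hc⟩⟩ (DA.of_field hφ' hE₁) (DA.of_field hφ' hE₂)
    ⟨x1, by
      change (φ' (E₁ x1)).coeff 0 ≠ 0
      rwa [Polynomial.coeff_zero_eq_eval_zero, hφ'.ev]⟩
    (fun x => by
      change (φ' (E₂ x)).coeff 0 = 0
      rw [Polynomial.coeff_zero_eq_eval_zero, hφ'.ev, hz]) ⟨x2, hg0⟩
  refine ⟨α • toVF E₁ + β • toVF E₂, (Glob.smulC α hD₁).add (Glob.smulC β hD₂),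
    (HV.smulC α hv₁).add (HV.smulC β hv₂), ?_⟩
  have h5 := ((valV_toVF y.q E₁).smulC α).add ((valV_toVF y.q E₂).smulC β)
  have h6 : α • y.q.toLinearMap.comp (E₁ : R →ₗ[ℂ] R) +
      β • y.q.toLinearMap.comp (E₂ : R →ₗ[ℂ] R) = t := by
    apply linearMap_ext_graded' 𝒜
    intro d m h hh
    rw [← htop d m h hh, hαβ h, Polynomial.coeff_add, Polynomial.coeff_C_mul,
      Polynomial.coeff_C_mul]
    change α * y.q (E₁ h) + β * y.q (E₂ h) =
      α * (φ' (E₁ h)).coeff (d * n) + β * (φ' (E₂ h)).coeff (d * n)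
    rw [hφ'.ev' d _ _ (hE₁ d m h hh), hφ'.ev' d _ _ (hE₂ d m h hh)]
  rwa [h6] at h5

/-- **A field and a field of the neighbouring weight, two possible orders.** -/
theorem real_u2 (H : Hyp 𝒜) (hφ : Curve y y' a n φ) (hl : ∀ k : ℤ, lam ≠ k • a)
    (hk : ∀ k : ℕ, y'.Pi (lam - k • a) → k = 0 ∨ k = 1) {D w : VF R}
    (hD : Glob D) (hv : HV 𝒜 lam D) (h₁ : ¬ ValV y'.q D 0)
    (hw : Glob w) (hwv : HV 𝒜 (lam - a) w) (hw0 : ¬ ValV y.q w 0)
    {t : R →ₗ[ℂ] ℂ} (ht : IsTangent y.q t) (htw : HasWeight 𝒜 y.ν lam t) :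
    ∃ α : ℂ, ValV y.q (α • D) t := by
  obtain ⟨φ', hφ', hrel⟩ := exists_rev H hφ
  obtain ⟨x2, g, hg, hg0⟩ := ne_of_end hφ' hw hwv (Or.inr hw0)
  obtain ⟨E, rfl, hE⟩ := hD.exists_hder hv
  obtain ⟨W, rfl, hW⟩ := hw.exists_hder hwv
  have inj : Function.Injective (algebraMap R (FractionRing R)) := IsFractionRing.injective R _
  have hEg : W x2 = g := by
    rw [toVF_iK] at hg
    exact inj hg
  subst hEg
  obtain ⟨δ, hδ, hdeg, htop⟩ := exists_lift H hφ' ht htw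
  obtain ⟨x1, hx1⟩ : ∃ x, y'.q (E x) ≠ 0 := by
    by_contra hcon
    push Not at hcon
    apply h₁
    have h3 := valV_toVF y'.q E
    have h4 : y'.q.toLinearMap.comp (E : R →ₗ[ℂ] R) = 0 := LinearMap.ext hcon
    rwa [h4] at h3
  obtain ⟨α, β, hαβ⟩ := DA.span2 H hφ' (fun k hk => hl (-k) (by rw [hk, neg_smul, smul_neg]))
    (fun k hk' => hk k (by rwa [smul_neg, ← sub_eq_add_neg] at hk'))
    (δ := δ) ⟨hδ, fun d m h hh hne => by
      obtain ⟨i, -, hi, hc⟩ := hdeg d m h hh hne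
      exact ⟨i, hi, hc⟩⟩ (DA.of_field hφ' hE)
    (DA.of_mul hφ' (E := W) (lam := lam) (by rwa [← sub_eq_add_neg]))
    ⟨x1, by
      change (φ' (E x1)).coeff 0 ≠ 0
      rwa [Polynomial.coeff_zero_eq_eval_zero, hφ'.ev]⟩
    (fun x => by
      change (Polynomial.X * φ' (W x)).coeff 0 = 0
      rw [Polynomial.mul_coeff_zero, Polynomial.coeff_X_zero, zero_mul])
    ⟨x2, mul_ne_zero Polynomial.X_ne_zero hg0⟩
  -- the coefficient above the top one
  have hzero : ∀ d m, ∀ h ∈ 𝒜 (d, m), ∀ j, d * n < j → (φ' h).coeff j = 0 := by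
    intro d m h hh j hj
    obtain ⟨i, hi, -, c, hc⟩ := form hφ' hh
    rw [hc, Polynomial.coeff_C_mul_X_pow, if_neg (by omega)]
  have hβ : β = 0 := by
    by_contra hβ
    apply hw0
    have h3 := valV_toVF y.q W
    have h4 : y.q.toLinearMap.comp (W : R →ₗ[ℂ] R) = 0 := by
      apply linearMap_ext_graded' 𝒜
      intro d m h hh
      change y.q (W h) = 0
      have h5 := congrArg (fun p => Polynomial.coeff p (d * n + 1)) (hαβ h)
      simp only [Polynomial.coeff_add, Polynomial.coeff_C_mul] at h5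
      change (δ h).coeff (d * n + 1) = α * (φ' (E h)).coeff (d * n + 1) +
        β * (Polynomial.X * φ' (W h)).coeff (d * n + 1) at h5
      rw [Polynomial.coeff_X_mul, hφ'.ev' d _ _ (hW d m h hh),
        hzero d _ _ (hE d m h hh) _ (Nat.lt_succ_self _), mul_zero, zero_add] at h5
      have h6 : (δ h).coeff (d * n + 1) = 0 := by
        by_cases h0 : δ h = 0
        · rw [h0, Polynomial.coeff_zero]
        · obtain ⟨i, hi, -, c, hc⟩ := hdeg d m h hh h0
          rw [hc, Polynomial.coeff_C_mul_X_pow, if_neg (by omega)]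
      rw [h6] at h5
      exact (mul_eq_zero.1 h5.symm).resolve_left hβ
    rwa [h4] at h3
  subst hβ
  refine ⟨α, ?_⟩
  have h5 := (valV_toVF y.q E).smulC α
  have h6 : α • y.q.toLinearMap.comp (E : R →ₗ[ℂ] R) = t := by
    apply linearMap_ext_graded' 𝒜
    intro d m h hh
    rw [← htop d m h hh, hαβ h, Polynomial.coeff_add, Polynomial.coeff_C_mul,
      Polynomial.coeff_C_mul, zero_mul, add_zero]
    change α * y.q (E h) = α * (φ' (E h)).coeff (d * n)
    rw [hφ'.ev' d _ _ (hE d m h hh)]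
  rwa [h6] at h5

end Vale.Agent.P280.H495
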